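import Mathlib.Tactic

/-!
P237, finitely many dimensions: the operations on integers written with one recursor step per sign, for
evaluation by the kernel, and their meaning.
-/

noncomputable section

namespace Vale.Agent.P237.All.Finite

/-- The sum. -/
def zadd (a b : ℤ) : ℤ :=
  Int.rec
    (fun m => Int.rec (fun n => Int.ofNat (Nat.add m n))
      (fun n => Bool.rec (Int.ofNat (Nat.sub m (Nat.add n 1))) (Int.negSucc (Nat.sub n m)) (Nat.ble m n)) b)
    (fun m => Int.rec
      (fun n => Bool.rec (Int.ofNat (Nat.sub n (Nat.add m 1))) (Int.negSucc (Nat.sub m n)) (Nat.ble n m))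
      (fun n => Int.negSucc (Nat.add (Nat.add m n) 1)) b) a

/-- The opposite. -/
def zneg (a : ℤ) : ℤ :=
  Int.rec (fun m => Bool.rec (Int.negSucc (Nat.sub m 1)) (Int.ofNat 0) (Nat.beq m 0))
    (fun m => Int.ofNat (Nat.add m 1)) a

/-- The difference. -/
def zsub (a b : ℤ) : ℤ :=
  Int.rec
    (fun m => Int.rec
      (fun n => Bool.rec (Int.negSucc (Nat.sub (Nat.sub n m) 1)) (Int.ofNat (Nat.sub m n)) (Nat.ble n m))
      (fun n => Int.ofNat (Nat.add (Nat.add m n) 1)) b)
    (fun m => Int.rec (fun n => Int.negSucc (Nat.add m n))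
      (fun n => Bool.rec (Int.negSucc (Nat.sub (Nat.sub m n) 1)) (Int.ofNat (Nat.sub n m)) (Nat.ble m n)) b) a

/-- The product. -/
def zmul (a b : ℤ) : ℤ :=
  Int.rec
    (fun m => Int.rec (fun n => Int.ofNat (Nat.mul m n))
      (fun n => Bool.rec (Int.negSucc (Nat.sub (Nat.mul m (Nat.add n 1)) 1)) (Int.ofNat 0) (Nat.beq m 0)) b)
    (fun m => Int.rec
      (fun n => Bool.rec (Int.negSucc (Nat.sub (Nat.mul (Nat.add m 1) n) 1)) (Int.ofNat 0) (Nat.beq n 0))
      (fun n => Int.ofNat (Nat.mul (Nat.add m 1) (Nat.add n 1))) b) a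

/-- The power. -/
def zpow (a : ℤ) (p : ℕ) : ℤ :=
  Int.rec (fun m => Int.ofNat (Nat.pow m p))
    (fun m => Bool.rec (Int.negSucc (Nat.sub (Nat.pow (Nat.add m 1) p) 1))
      (Int.ofNat (Nat.pow (Nat.add m 1) p)) (Nat.beq (Nat.mod p 2) 0)) a

/-- The order. -/
def zle (a b : ℤ) : Bool :=
  Int.rec (fun m => Int.rec (fun n => Nat.ble m n) (fun _ => false) b)
    (fun m => Int.rec (fun _ => true) (fun n => Nat.ble n m) b) a

/-- The strict order. -/
def zlt (a b : ℤ) : Bool :=
  Int.rec (fun m => Int.rec (fun n => Nat.blt m n) (fun _ => false) b)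
    (fun m => Int.rec (fun _ => true) (fun n => Nat.blt n m) b) a

/-- Equality. -/
def zeq (a b : ℤ) : Bool :=
  Int.rec (fun m => Int.rec (fun n => Nat.beq m n) (fun _ => false) b)
    (fun m => Int.rec (fun _ => false) (fun n => Nat.beq m n) b) a

theorem zadd_eq (a b : ℤ) : zadd a b = a + b := by
  rcases a with m | m <;> rcases b with n | n <;> simp only [zadd, Nat.add_eq, Nat.sub_eq]
  · rfl
  · rcases h : Nat.ble m n with _ | _
    · have : ¬m ≤ n := fun hc => by rw [← Nat.ble_eq, h] at hc; exact Bool.false_ne_true hc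
      simp only [Int.ofNat_eq_natCast]; omega
    · have := Nat.le_of_ble_eq_true h
      simp only [Int.ofNat_eq_natCast, Int.negSucc_eq]; omega
  · rcases h : Nat.ble n m with _ | _
    · have : ¬n ≤ m := fun hc => by rw [← Nat.ble_eq, h] at hc; exact Bool.false_ne_true hc
      simp only [Int.ofNat_eq_natCast, Int.negSucc_eq]; omega
    · have := Nat.le_of_ble_eq_true h
      simp only [Int.ofNat_eq_natCast, Int.negSucc_eq]; omega
  · simp only [Int.negSucc_eq]; omega

theorem zneg_eq (a : ℤ) : zneg a = -a := by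
  rcases a with m | m <;> simp only [zneg, Nat.add_eq, Nat.sub_eq]
  · rcases m with _ | m
    · rfl
    · show Int.negSucc m = _
      simp [Int.negSucc_eq]
  · simp [Int.negSucc_eq]

theorem zsub_eq (a b : ℤ) : zsub a b = a - b := by
  rcases a with m | m <;> rcases b with n | n <;> simp only [zsub, Nat.add_eq, Nat.sub_eq]
  · rcases h : Nat.ble n m with _ | _
    · have : ¬n ≤ m := fun hc => by rw [← Nat.ble_eq, h] at hc; exact Bool.false_ne_true hc
      simp only [Int.ofNat_eq_natCast, Int.negSucc_eq]; omega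
    · have := Nat.le_of_ble_eq_true h
      simp only [Int.ofNat_eq_natCast]; omega
  · simp only [Int.ofNat_eq_natCast, Int.negSucc_eq]; omega
  · simp only [Int.ofNat_eq_natCast, Int.negSucc_eq]; omega
  · rcases h : Nat.ble m n with _ | _
    · have : ¬m ≤ n := fun hc => by rw [← Nat.ble_eq, h] at hc; exact Bool.false_ne_true hc
      simp only [Int.negSucc_eq]; omega
    · have := Nat.le_of_ble_eq_true h
      simp only [Int.ofNat_eq_natCast, Int.negSucc_eq]; omega

theorem negSucc_pred {k : ℕ} (h : k ≠ 0) : Int.negSucc (k - 1) = -(k : ℤ) := by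
  simp only [Int.negSucc_eq]; omega

theorem zmul_eq (a b : ℤ) : zmul a b = a * b := by
  rcases a with m | m <;> rcases b with n | n <;> simp only [zmul, Nat.add_eq, Nat.sub_eq, Nat.mul_eq]
  · rfl
  · rcases m with _ | m
    · simp
    · show Int.negSucc ((m + 1) * (n + 1) - 1) = _
      rw [negSucc_pred (by simp)]; simp [Int.negSucc_eq]; ring
  · rcases n with _ | n
    · simp
    · show Int.negSucc ((m + 1) * (n + 1) - 1) = _
      rw [negSucc_pred (by simp)]; simp [Int.negSucc_eq]; ring
  · simp only [Int.ofNat_eq_natCast, Int.negSucc_eq]; push_cast; ring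

theorem zpow_eq (a : ℤ) (p : ℕ) : zpow a p = a ^ p := by
  rcases a with m | m <;> simp only [zpow, Nat.add_eq, Nat.sub_eq]
  · simp [Nat.pow_eq]
  · rcases h : Nat.beq (Nat.mod p 2) 0 with _ | _
    · have : Odd p := Nat.odd_iff.2 (by
        have h' : p % 2 ≠ 0 := fun hc => by simp [show Nat.mod p 2 = 0 from hc] at h
        omega)
      show Int.negSucc ((m + 1) ^ p - 1) = _
      rw [negSucc_pred (by positivity), Int.negSucc_eq, this.neg_pow]; push_cast; ring
    · have : Even p := Nat.even_iff.2 (Nat.eq_of_beq_eq_true h)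
      show Int.ofNat ((m + 1) ^ p) = _
      rw [Int.negSucc_eq, this.neg_pow]; push_cast; simp

theorem zle_eq (a b : ℤ) : zle a b = decide (a ≤ b) := by
  rw [Bool.eq_iff_iff, decide_eq_true_eq]
  rcases a with m | m <;> rcases b with n | n <;>
    simp only [zle, Nat.ble_eq, Int.ofNat_eq_natCast, Int.negSucc_eq, Bool.false_eq_true, true_iff,
      false_iff, not_le] <;> omega

theorem zlt_eq (a b : ℤ) : zlt a b = decide (a < b) := by
  rw [Bool.eq_iff_iff, decide_eq_true_eq]
  rcases a with m | m <;> rcases b with n | n <;>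
    simp only [zlt, Nat.blt_eq, Int.ofNat_eq_natCast, Int.negSucc_eq, Bool.false_eq_true, true_iff,
      false_iff, not_lt] <;> omega

theorem zeq_eq (a b : ℤ) : zeq a b = decide (a = b) := by
  rw [Bool.eq_iff_iff, decide_eq_true_eq]
  rcases a with m | m <;> rcases b with n | n <;>
    simp only [zeq, Nat.beq_eq, Int.ofNat_eq_natCast, Int.negSucc_eq, Bool.false_eq_true, false_iff] <;>
      omega

end Vale.Agent.P237.All.Finite
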