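import Vale.Agent.P237.All.Finite.Fast.Int
import Vale.Agent.P237.All.Finite.Checker

/-!
P237, finitely many dimensions: the test of the bands of a piece with the series of the tail as a
fraction of naturals, for evaluation by the kernel; it implies the test of `Checker`.
-/

noncomputable section

namespace Vale.Agent.P237.All.Finite

/-- The series of the tail at `s = a / b`, from the inside, as numerator and denominator. -/
def tailAB {α : Type} (p a b : ℕ) (n : ℕ) : ℕ → (ℕ → ℕ → α) → α :=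
  Nat.rec (motive := fun _ => ℕ → (ℕ → ℕ → α) → α) (fun _ k => k 0 1)
    (fun _ ih j k => ih (Nat.add j 1) fun A B =>
      forceN (Nat.add (Nat.add p 2) (Nat.mul 2 j)) fun m =>
      forceN (Nat.mul (Nat.mul (Nat.add (Nat.mul 2 j) 2) b) B) fun e =>
      forceN (Nat.add e (Nat.mul (Nat.mul (Nat.mul m (Nat.add (Nat.mul 2 j) 1)) a) A)) fun A' =>
      forceN (Nat.mul m e) fun B' => k A' B') n

open Transport.Finite (tailSum tailBQ tailUp)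

theorem tailAB_spec {α : Type} (p a b : ℕ) (hb : 0 < b) :
    ∀ (n j : ℕ), ∃ A B : ℕ, 0 < B ∧ (∀ k : ℕ → ℕ → α, tailAB p a b n j k = k A B) ∧
      ∀ c : ℚ, tailSum p ((a : ℚ) / b) n j c = c * A / B
  | 0, j => ⟨0, 1, one_pos, fun k => rfl, fun c => by simp [tailSum]⟩
  | n + 1, j => by
    obtain ⟨A, B, hB, hk, hs⟩ := tailAB_spec (α := α) p a b hb n (j + 1)
    refine ⟨(2 * j + 2) * b * B + (p + 2 + 2 * j) * (2 * j + 1) * a * A,
      (p + 2 + 2 * j) * ((2 * j + 2) * b * B), by positivity, fun k => ?_, fun c => ?_⟩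
    · show tailAB p a b n (Nat.add j 1) _ = _
      rw [show Nat.add j 1 = j + 1 from rfl, hk]
      simp only [forceN_eq]
      rfl
    · rw [tailSum, hs]
      have hb' : (b : ℚ) ≠ 0 := Nat.cast_ne_zero.2 hb.ne'
      have hB' : (B : ℚ) ≠ 0 := Nat.cast_ne_zero.2 hB.ne'
      have h1 : (p : ℚ) + 2 + 2 * j ≠ 0 := by positivity
      have h2 : 2 * (j : ℚ) + 2 ≠ 0 := by positivity
      push_cast
      field_simp

/-- `ρ² ≥ 1 - y0² (i / n)²` along the list, on naturals: `U2 = U²`, `W2 = (Q n)²`, `UW = U2 W2`,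
`y = Y0 i`, which grows by `Y0`. -/
def phiN (U2 W2 UW Y0 : ℕ) (y : ℕ) (l : List ℤ) : Bool :=
  List.rec (motive := fun _ => ℕ → Bool) (fun _ => true)
    (fun s _ ih y => Int.rec
      (fun m => Nat.ble UW (Nat.add (Nat.mul (Nat.mul m m) W2) (Nat.mul U2 (Nat.mul y y))) &&
        forceN (Nat.add y Y0) ih)
      (fun _ => false) s) l y

/-- `σ² ≤ 1 - y1² (1 + (i + 1) b / n)²` along the list, on naturals: `T = Y1 (U n + (i + 1) b)`, which
grows by `d = Y1 b`. -/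
def sigN (U2 W2 UW d : ℕ) (T : ℕ) (l : List ℤ) : Bool :=
  List.rec (motive := fun _ => ℕ → Bool) (fun _ => true)
    (fun s _ ih T => Int.rec
      (fun m => (Nat.beq m 0 || Nat.ble (Nat.add (Nat.mul (Nat.mul m m) W2) (Nat.mul U2 (Nat.mul T T))) UW) &&
        forceN (Nat.add T d) ih)
      (fun _ => false) s) l T

/-- The test of the three lists of an affine band. -/
def bandF (U Q Y0 Y1 b0 b1 : ℤ) (phi sig0 sig1 : List ℤ) : Bool :=
  zle 0 U && zle 0 Q && zle 0 Y0 && zle 0 Y1 && zle 0 b0 && zle 0 b1 &&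
  forceN phi.length fun n => forceN U.toNat fun u => forceN Q.toNat fun q =>
  forceN (Nat.mul u u) fun U2 => forceN Y1.toNat fun y1 =>
  forceN (Nat.mul (Nat.mul q n) (Nat.mul q n)) fun W2 =>
  forceN (Nat.mul (Nat.mul y1 u) n) fun T0 =>
  forceN (Nat.mul (Nat.mul (Nat.mul q u) n) (Nat.mul (Nat.mul q u) n)) fun V2 =>
  forceN (Nat.mul y1 b0.toNat) fun d0 => forceN (Nat.mul y1 b1.toNat) fun d1 =>
    phiN U2 W2 (Nat.mul U2 W2) Y0.toNat 0 phi &&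
      sigN U2 V2 (Nat.mul U2 V2) d0 (Nat.add T0 d0) sig0 && sigN U2 V2 (Nat.mul U2 V2) d1 (Nat.add T0 d1) sig1

/-- The sum of the powers. -/
def powF (p : ℕ) (l : List ℤ) : ℤ := List.rec 0 (fun s _ ih => zadd (zpow s p) ih) l

theorem phiN_le {U Q Y0 n : ℤ} {U2 W2 UW D : ℕ} (hU : (U2 : ℤ) = U * U)
    (hW : (W2 : ℤ) = Q * n * (Q * n)) (hUW : UW = U2 * W2) (hD : (D : ℤ) = Y0) :
    ∀ (l : List ℤ) (i : ℤ) (y : ℕ), (y : ℤ) = Y0 * i → phiN U2 W2 UW D y l = true →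
      phiTest U Q Y0 n i l = true
  | [], _, _, _, _ => rfl
  | (Int.negSucc m) :: l, i, y, _, h => by cases h
  | (Int.ofNat m) :: l, i, y, hy, h => by
    replace h : (Nat.ble UW (Nat.add (Nat.mul (Nat.mul m m) W2) (Nat.mul U2 (Nat.mul y y))) &&
      forceN (Nat.add y D) fun y => phiN U2 W2 UW D y l) = true := h
    simp only [forceN_eq, Bool.and_eq_true, Nat.ble_eq, Nat.add_eq, Nat.mul_eq] at h
    simp only [phiTest, Bool.and_eq_true, decide_eq_true_eq]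
    refine ⟨⟨Int.natCast_nonneg m, ?_⟩, phiN_le hU hW hUW hD l (i + 1) _ (by push_cast; rw [hy, hD]; ring) h.2⟩
    have h1 := Int.ofNat_le.2 h.1
    push_cast [hUW] at h1
    rw [hU, hW, hy] at h1
    simp only [Int.ofNat_eq_natCast]
    linarith

theorem sigN_le {U Q Y1 b n : ℤ} {U2 W2 UW D : ℕ} (hU : (U2 : ℤ) = U * U)
    (hW : (W2 : ℤ) = Q * U * n * (Q * U * n)) (hUW : UW = U2 * W2) (hD : (D : ℤ) = Y1 * b) :
    ∀ (l : List ℤ) (i : ℤ) (T : ℕ), (T : ℤ) = Y1 * (U * n + (i + 1) * b) →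
      sigN U2 W2 UW D T l = true → sigTest U Q Y1 b n i l = true
  | [], _, _, _, _ => rfl
  | (Int.negSucc m) :: l, i, T, _, h => by cases h
  | (Int.ofNat m) :: l, i, T, hT, h => by
    replace h : ((Nat.beq m 0 || Nat.ble (Nat.add (Nat.mul (Nat.mul m m) W2) (Nat.mul U2 (Nat.mul T T))) UW) &&
      forceN (Nat.add T D) fun T => sigN U2 W2 UW D T l) = true := h
    simp only [forceN_eq, Bool.and_eq_true, Bool.or_eq_true, Nat.ble_eq, Nat.beq_eq, Nat.add_eq, Nat.mul_eq] at h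
    simp only [sigTest, Bool.and_eq_true, Bool.or_eq_true, decide_eq_true_eq]
    refine ⟨h.1.imp (fun e => by simp [e]) fun e => ⟨Int.natCast_nonneg m, ?_⟩,
      sigN_le hU hW hUW hD l (i + 1) _ (by push_cast; rw [hT, hD]; ring) h.2⟩
    have h1 := Int.ofNat_le.2 e
    push_cast [hUW] at h1
    rw [hU, hW, hT] at h1
    simp only [Int.ofNat_eq_natCast]
    linarith

theorem bandF_le {U Q Y0 Y1 b0 b1 : ℤ} {phi sig0 sig1 : List ℤ}
    (h : bandF U Q Y0 Y1 b0 b1 phi sig0 sig1 = true) :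
    phiTest U Q Y0 phi.length 0 phi = true ∧ sigTest U Q Y1 b0 phi.length 0 sig0 = true ∧
      sigTest U Q Y1 b1 phi.length 0 sig1 = true := by
  simp only [bandF, forceN_eq, Bool.and_eq_true, zle_eq, decide_eq_true_eq, Nat.mul_eq, Nat.add_eq] at h
  obtain ⟨⟨⟨⟨⟨⟨hU, hQ⟩, hY0⟩, hY1⟩, hb0⟩, hb1⟩, ⟨h1, h2⟩, h3⟩ := h
  refine ⟨phiN_le ?_ ?_ rfl ?_ phi 0 0 (by simp) h1, sigN_le ?_ ?_ rfl ?_ sig0 0 _ ?_ h2,
    sigN_le ?_ ?_ rfl ?_ sig1 0 _ ?_ h3⟩ <;>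
    simp only [Nat.cast_mul, Nat.cast_add, Int.toNat_of_nonneg, hU, hQ, hY0, hY1, hb0, hb1] <;> ring

theorem powF_eq (p : ℕ) : ∀ l : List ℤ, powF p l = powSum p l
  | [] => rfl
  | s :: l => by
    show zadd (zpow s p) (powF p l) = _
    simp only [powSum, zadd_eq, zpow_eq, powF_eq p l]

/-- The back band from the series of the tail. -/
def backF (C : Cell) (P : Piece) : Bool :=
  strictZ (zmul C.Q C.Q) fun D => strictZ (zmul P.Y0 P.Y0) fun Z =>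
  zlt 0 P.Y0 && zle Z D && zlt 0 C.e0.eps && zle 0 C.e1.eps &&
    zle (zmul C.e1.eps P.al0) (zmul P.al1 C.e0.eps) && zlt 0 C.Q &&
    forceN (zsub D Z).toNat fun a => forceN D.toNat fun b =>
    tailAB C.K.p a b 60 0 fun A B =>
    forceN (Nat.mul 96614908840363322603893139521372656 (Nat.pow a 60)) fun X =>
    forceN (Nat.mul (Nat.mul (Nat.mul 1329227995784915872903807060280344576 (Nat.pow b 59)) (Nat.add C.K.p 122)) Z.toNat) fun Y =>
      zle (zmul (zmul C.e0.eps (Int.ofNat (Nat.add (Nat.mul A Y) (Nat.mul X B)))) C.Q)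
        (zmul (zmul P.al0 P.Y0) (Int.ofNat (Nat.mul B Y)))

theorem backF_le (C : Cell) (P : Piece) (h : backF C P = true) : backTest C P = true := by
  simp only [backF, strictZ_eq, forceN_eq, Bool.and_eq_true, zle_eq, zlt_eq, zmul_eq, zsub_eq,
    decide_eq_true_eq, Nat.mul_eq, Nat.add_eq, Nat.pow_eq, Int.ofNat_eq_natCast] at h
  obtain ⟨⟨⟨⟨⟨⟨hY, hZ⟩, h0⟩, h1⟩, h2⟩, hQ⟩, h⟩ := h
  obtain ⟨a, ha⟩ : ∃ a, a = (C.Q * C.Q - P.Y0 * P.Y0).toNat := ⟨_, rfl⟩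
  obtain ⟨b, hb⟩ : ∃ b, b = (C.Q * C.Q).toNat := ⟨_, rfl⟩
  obtain ⟨z, hz⟩ : ∃ z, z = (P.Y0 * P.Y0).toNat := ⟨_, rfl⟩
  rw [← ha, ← hb, ← hz] at h
  have hQ2 : 0 < C.Q * C.Q := mul_pos hQ hQ
  have hY2 : 0 < P.Y0 * P.Y0 := mul_pos hY hY
  obtain ⟨A, B, hB, hk, hs⟩ := tailAB_spec (α := Bool) C.K.p a b (by omega) 60 0
  rw [hk, decide_eq_true_eq] at h
  have ea : (a : ℚ) = (C.Q : ℚ) * C.Q - (P.Y0 : ℚ) * P.Y0 := by
    have : (a : ℤ) = C.Q * C.Q - P.Y0 * P.Y0 := by omega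
    exact_mod_cast congrArg (fun x : ℤ => (x : ℚ)) this
  have eb : (b : ℚ) = (C.Q : ℚ) * C.Q := by
    have : (b : ℤ) = C.Q * C.Q := by omega
    exact_mod_cast congrArg (fun x : ℤ => (x : ℚ)) this
  have ez : (z : ℚ) = (P.Y0 : ℚ) * P.Y0 := by
    have : (z : ℤ) = P.Y0 * P.Y0 := by omega
    exact_mod_cast congrArg (fun x : ℤ => (x : ℚ)) this
  simp only [backTest, Bool.and_eq_true, decide_eq_true_eq]
  refine ⟨⟨⟨h0, h1⟩, h2⟩, ?_⟩
  have hq : (0 : ℚ) < C.Q := Int.cast_pos.2 hQ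
  have hy : (0 : ℚ) < P.Y0 := Int.cast_pos.2 hY
  have es : (1 : ℚ) - ((P.Y0 : ℚ) / C.Q) ^ 2 = (a : ℚ) / b := by
    rw [ea, eb]; field_simp
  have ey : ((P.Y0 : ℚ) / C.Q) ^ 2 = (z : ℚ) / b := by
    rw [ez, eb]; field_simp
  have h' := (Int.cast_le (R := ℚ)).2 h
  push_cast at h'
  rw [tailUp, es, ey, hs, one_mul]
  have hb' : (0 : ℚ) < b := by rw [eb]; positivity
  have hz' : (0 : ℚ) < z := by rw [ez]; positivity
  have hB' : (0 : ℚ) < B := Nat.cast_pos.2 hB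
  rw [show (C.e0.eps : ℚ) * ((A : ℚ) / B + 96614908840363322603893139521372656 / 1329227995784915872903807060280344576 * ((a : ℚ) / b) ^ 60 /
      (((C.K.p : ℚ) + 122) * ((z : ℚ) / b))) =
      (C.e0.eps : ℚ) * ((A : ℚ) * (1329227995784915872903807060280344576 * (b : ℚ) ^ 59 * ((C.K.p : ℚ) + 122) * z) +
        96614908840363322603893139521372656 * (a : ℚ) ^ 60 * B) * C.Q /
      ((B : ℚ) * (1329227995784915872903807060280344576 * (b : ℚ) ^ 59 * ((C.K.p : ℚ) + 122) * z) * C.Q) by field_simp]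
  rw [div_le_iff₀ (by positivity),
    show ∀ X : ℚ, (P.al0 : ℚ) * ((P.Y0 : ℚ) / C.Q) * (X * C.Q) = P.al0 * P.Y0 * X from fun X => by field_simp]
  linarith only [h']

/-- The test of a mixed band. -/
def mixF (C : Cell) (P : Piece) : Bool :=
  strictZ C.K.U fun U => strictZ C.Q fun Q => strictZ (Int.ofNat P.phi.length) fun n =>
  strictZ (zadd (zmul U (zsub Q P.Y0) / P.Y0) 1) fun bt =>
  strictZ (zneg (zneg (zadd (zmul (zsub P.bb1 bt) C.e0.eps) (zmul (zsub bt P.bb0) C.e1.eps)) /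
    zsub P.bb1 P.bb0)) fun ec =>
  zlt 0 P.Y0 && zlt 0 n && zeq (Int.ofNat P.sig0.length) n && zeq (Int.ofNat P.sig1.length) n &&
    zle P.bb0 bt && zle bt P.bb1 && bandF U Q P.Y0 P.Y1 P.bb0 bt P.phi P.sig0 P.sig1 &&
    strictZ (powF C.K.p P.phi) fun F =>
      zle (zmul C.e0.eps F) (zmul P.bb0 (powF C.K.p P.sig0)) && zle (zmul ec F) (zmul bt (powF C.K.p P.sig1))

theorem mixF_le {C : Cell} {P : Piece} (h : mixF C P = true) : mixTest C P = true := by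
  simp only [mixF, strictZ_eq, zadd_eq, zsub_eq, zmul_eq, zneg_eq, zle_eq, zlt_eq, zeq_eq, powF_eq,
    Int.ofNat_eq_natCast, Bool.and_eq_true, decide_eq_true_eq] at h
  obtain ⟨⟨⟨⟨⟨⟨⟨g1, g2⟩, g3⟩, g4⟩, g5⟩, g6⟩, hb⟩, e0, e1⟩ := h
  obtain ⟨b1, b2, b3⟩ := bandF_le hb
  simp only [mixTest, Bool.and_eq_true, decide_eq_true_eq]
  exact ⟨⟨⟨⟨⟨⟨⟨⟨⟨⟨g1, g2⟩, g3⟩, g4⟩, g5⟩, g6⟩, b1⟩, b2⟩, b3⟩, e0⟩, e1⟩

/-- The part from `Reach`, for `Mu = un / ud` and `Ml = ln / ld`. -/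
def reachF (C : Cell) (un ln : ℤ) (ud ld : ℕ) (P : Piece) : Bool :=
  strictZ C.K.U fun U =>
  strictZ (zmul C.Q C.Q) fun D =>
  strictZ (zmul P.Y0 P.Y0) fun Z0 =>
  strictZ (zmul P.Y1 P.Y1) fun Z1 =>
  strictZ (Int.ofNat ud) fun dz => strictZ (Int.ofNat ld) fun lz =>
  strictZ (Int.ofNat (Nat.add C.K.p 2)) fun p2 => forceN (Nat.add C.K.p 1) fun p1 =>
  (zle P.rho 0 ||
    (zlt 0 P.T1 && zle (zmul (zmul P.T1 P.T1) D) (zmul (zmul U U) (zsub D Z1)) && zle P.S0 P.W &&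
      zlt 0 D && zle Z0 D && zle Z1 D &&
      forceN D.toNat fun b =>
      forceN (zsub D Z0).toNat fun a0 => forceN (zsub D Z1).toNat fun a1 =>
      tailAB C.K.p a0 b 20 0 fun A0 B0 => tailAB C.K.p a1 b 20 0 fun A1 B1 =>
      strictZ (zpow U p1) fun Up =>
      zle (zmul (zmul (zpow P.S0 (Nat.add p1 1)) (Int.ofNat A0)) dz)
          (zmul (zmul (zmul P.v0 Up) un) (Int.ofNat B0)) &&
      zle (zmul (zmul un (zmul Up U)) (Int.ofNat B1))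
          (zmul (zmul (zmul (zpow P.W p1) P.T1) (Int.ofNat A1)) dz) &&
      zle (zmul (zmul (zmul P.rho un) (zadd (zmul P.S0 P.v0) (zmul (zmul (Int.ofNat p1) P.W) U))) lz)
          (zmul (zmul (zmul ln p2) (zmul (zmul U U) U)) dz))) &&
  (zlt P.Kx 0 ||
    (zle U P.W1 && zle (zmul (zmul p2 un) (zpow U p1)) (zmul (zpow P.W1 p1) dz) &&
      zle (zmul (zmul P.S0 (zpow (zmul (zmul p2 P.W1) un) C.K.p)) (zpow lz C.K.p))
          (zmul (zmul P.Kx (zpow (zmul p2 ln) C.K.p)) (zpow (zmul U dz) C.K.p))))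

/-- The bands and the bounds from `Reach` of a piece. -/
def pieceF (C : Cell) (Mu Ml : ℚ) (P : Piece) : Bool :=
  strictZ C.K.U fun U =>
  strictZ C.Q fun Q =>
  strictZ (Int.ofNat P.phi.length) fun n =>
  strictZ (zmul Q Q) fun D =>
  strictZ (zmul P.Y0 P.Y0) fun Z0 =>
  zle 0 P.Y0 && zlt P.Y0 P.Y1 && zle P.Y1 Q && zlt 0 U &&
    Nat.beq P.L0.length 3 && Nat.beq P.L1.length 3 && Nat.beq P.L2.length 3 &&
    P.L0.all (fun x => zle 0 x) && P.L1.all (fun x => zle 0 x) && P.L2.all (fun x => zle 0 x) &&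
    (!P.back || (zlt 0 P.Y0 &&
      ((zle (zmul C.e0.eps D) (zmul (zmul P.al0 (Int.ofNat (Nat.add C.K.p 2))) Z0) &&
          zle (zmul C.e1.eps D) (zmul (zmul P.al1 (Int.ofNat (Nat.add C.K.p 2))) Z0)) ||
        backF C P || smallTest C Mu P))) &&
    zle 0 P.bb0 && zle P.bb0 P.bb1 &&
    cond P.ovf
      (cond (zeq P.bb0 P.bb1) (zle (zmul (zmul U U) D) (zmul (zmul (zadd U P.bb0) (zadd U P.bb0)) Z0))
        (mixF C P))
      (zlt 0 n && zeq (Int.ofNat P.sig0.length) n && zeq (Int.ofNat P.sig1.length) n &&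
        zle (zmul P.Y1 (zadd U P.bb1)) (zmul Q U) &&
        bandF U Q P.Y0 P.Y1 P.bb0 P.bb1 P.phi P.sig0 P.sig1 &&
        strictZ (powF C.K.p P.phi) fun F =>
          zle (zmul C.e0.eps F) (zmul P.bb0 (powF C.K.p P.sig0)) &&
            zle (zmul C.e1.eps F) (zmul P.bb1 (powF C.K.p P.sig1))) &&
    zle 0 P.S0 && zle (zmul (zmul U U) (zsub D Z0)) (zmul (zmul P.S0 P.S0) D) &&
    zle 0 (zadd P.T1 1) &&
    zle (zmul (zmul U U) (zsub D (zmul P.Y1 P.Y1))) (zmul (zmul (zadd P.T1 1) (zadd P.T1 1)) D) &&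
    reachF C Mu.num Ml.num Mu.den Ml.den P

theorem ite_eq_cond' {α : Type} (c : Bool) (x y : α) : (if c then x else y) = cond c x y := by
  cases c <;> rfl

theorem reachF_le {C : Cell} {Mu Ml : ℚ} {P : Piece} (hU : 0 < C.K.U)
    (h : reachF C Mu.num Ml.num Mu.den Ml.den P = true) :
    let U := C.K.U
    let p := C.K.p
    let D := C.Q * C.Q
    let p2 : ℚ := (p : ℚ) + 2
    let Uq : ℚ := U
    let s0 : ℚ := 1 - ((P.Y0 * P.Y0 : ℤ) : ℚ) / D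
    let s1 : ℚ := 1 - ((P.Y1 * P.Y1 : ℤ) : ℚ) / D
    ((decide (P.rho ≤ 0) ||
      (decide (0 < P.T1) && decide (P.T1 * P.T1 * D ≤ U * U * (D - P.Y1 * P.Y1)) &&
        decide (((P.S0 : ℚ) / Uq) ^ (p + 2) *
          (Transport.Finite.tailBQ p s0) ≤ (P.v0 : ℚ) / Uq * Mu) &&
        decide (P.S0 ≤ P.W) &&
        decide (Mu ≤ ((P.W : ℚ) / Uq) ^ (p + 1) * ((P.T1 : ℚ) / Uq) *
          (Transport.Finite.tailBQ p s1)) &&
        decide ((P.rho : ℚ) / Uq * Mu *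
          ((P.S0 : ℚ) / Uq * ((P.v0 : ℚ) / Uq) + ((p : ℚ) + 1) * ((P.W : ℚ) / Uq)) ≤ Ml * p2))) &&
    (decide (P.Kx < 0) ||
      (decide (U ≤ P.W1) && decide (p2 * Mu ≤ ((P.W1 : ℚ) / Uq) ^ (p + 1)) &&
        decide ((P.S0 : ℚ) / Uq * ((p2 * ((P.W1 : ℚ) / Uq)) * Mu) ^ p ≤
          (P.Kx : ℚ) / Uq * (Ml * p2) ^ p)))) = true := by
  intro U p D p2 Uq s0 s1
  simp only [reachF, strictZ_eq, forceN_eq, zle_eq, zlt_eq, zmul_eq, zsub_eq, zadd_eq, zpow_eq,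
    Bool.and_eq_true, Bool.or_eq_true, decide_eq_true_eq, Nat.add_eq, Int.ofNat_eq_natCast] at h ⊢
  obtain ⟨hr, hk⟩ := h
  have hUq : (0 : ℚ) < Uq := Int.cast_pos.2 hU
  have eU : Mu = (Mu.num : ℚ) / Mu.den := (Rat.num_div_den Mu).symm
  have eL : Ml = (Ml.num : ℚ) / Ml.den := (Rat.num_div_den Ml).symm
  have hmd : (0 : ℚ) < Mu.den := Nat.cast_pos.2 Mu.pos
  have hld : (0 : ℚ) < Ml.den := Nat.cast_pos.2 Ml.pos
  refine ⟨hr.imp id ?_, hk.imp id ?_⟩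
  · rintro ⟨⟨⟨⟨⟨⟨hT, hT2⟩, hW⟩, hD⟩, h0⟩, h1⟩, hh⟩
    obtain ⟨a0, ha0⟩ : ∃ a, a = (D - P.Y0 * P.Y0).toNat := ⟨_, rfl⟩
    obtain ⟨a1, ha1⟩ : ∃ a, a = (D - P.Y1 * P.Y1).toNat := ⟨_, rfl⟩
    obtain ⟨b, hb⟩ : ∃ b, b = D.toNat := ⟨_, rfl⟩
    rw [← ha0, ← ha1, ← hb] at hh
    obtain ⟨A0, B0, hB0, hk0, hs0⟩ := tailAB_spec (α := Bool) p a0 b (by omega) 20 0
    obtain ⟨A1, B1, hB1, hk1, hs1⟩ := tailAB_spec (α := Bool) p a1 b (by omega) 20 0
    rw [hk0, hk1] at hh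
    simp only [Bool.and_eq_true, decide_eq_true_eq] at hh
    obtain ⟨⟨c0, c1⟩, c2⟩ := hh
    have hDq : (0 : ℚ) < (D : ℚ) := Int.cast_pos.2 hD
    have eb : (b : ℚ) = (D : ℚ) := by
      have : (b : ℤ) = D := by omega
      exact_mod_cast congrArg (fun x : ℤ => (x : ℚ)) this
    have ea : ∀ {a : ℕ} {Y : ℤ}, a = (D - Y * Y).toNat → Y * Y ≤ D →
        1 - ((Y * Y : ℤ) : ℚ) / D = (a : ℚ) / b := by
      intro a Y e hle
      have : (a : ℤ) = D - Y * Y := by omega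
      have := congrArg (fun x : ℤ => (x : ℚ)) this
      push_cast at this ⊢
      rw [eb, this]; field_simp
    have f0 := (Int.cast_le (R := ℚ)).2 c0
    have f1 := (Int.cast_le (R := ℚ)).2 c1
    have f2 := (Int.cast_le (R := ℚ)).2 c2
    push_cast at f0 f1 f2
    refine ⟨⟨⟨⟨⟨hT, hT2⟩, ?_⟩, hW⟩, ?_⟩, ?_⟩
    · rw [show s0 = _ from ea ha0 h0, tailBQ, hs0, one_mul, eU, div_pow, div_mul_div_comm,
        div_mul_div_comm, div_le_div_iff₀ (by positivity) (by positivity)]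
      calc _ = ((P.S0 : ℚ) ^ (p + 1 + 1) * A0 * Mu.den) * Uq := by ring
        _ ≤ _ := mul_le_mul_of_nonneg_right f0 hUq.le
        _ = _ := by ring
    · rw [show s1 = _ from ea ha1 h1, tailBQ, hs1, one_mul, eU, div_pow, div_mul_div_comm,
        div_mul_div_comm, div_le_div_iff₀ (by positivity) (by positivity)]
      calc _ = (Mu.num : ℚ) * (Uq ^ (p + 1) * Uq) * B1 := by ring
        _ ≤ _ := f1
        _ = _ := by ring
    · rw [eU, eL]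
      have e : (P.S0 : ℚ) / Uq * ((P.v0 : ℚ) / Uq) + ((p : ℚ) + 1) * ((P.W : ℚ) / Uq) =
          ((P.S0 : ℚ) * P.v0 + ((p : ℚ) + 1) * P.W * Uq) / (Uq * Uq) := by field_simp
      rw [e, div_mul_div_comm, div_mul_div_comm, div_mul_eq_mul_div,
        div_le_div_iff₀ (by positivity) (by positivity)]
      calc _ = (P.rho : ℚ) * Mu.num * ((P.S0 : ℚ) * P.v0 + ((p : ℚ) + 1) * P.W * Uq) * Ml.den := by
            ring
        _ ≤ _ := f2
        _ = _ := by simp only [p2]; ring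
  · rintro ⟨⟨hW1, k1⟩, k2⟩
    have g1 := (Int.cast_le (R := ℚ)).2 k1
    have g2 := (Int.cast_le (R := ℚ)).2 k2
    push_cast at g1 g2
    refine ⟨⟨hW1, ?_⟩, ?_⟩
    · rw [eU, div_pow, mul_div_assoc', div_le_div_iff₀ (by positivity) (by positivity)]
      simpa [p2] using g1
    · rw [eU, eL, show p2 * ((P.W1 : ℚ) / Uq) * ((Mu.num : ℚ) / Mu.den) =
          (p2 * P.W1 * Mu.num) / (Uq * Mu.den) by field_simp,
        show (Ml.num : ℚ) / Ml.den * p2 = (p2 * Ml.num) / Ml.den by ring,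
        div_pow, div_pow, div_mul_div_comm, div_mul_div_comm,
        div_le_div_iff₀ (by positivity) (by positivity)]
      calc _ = (P.S0 : ℚ) * (p2 * P.W1 * Mu.num) ^ p * (Ml.den : ℚ) ^ p * Uq := by ring
        _ ≤ _ := mul_le_mul_of_nonneg_right g2 hUq.le
        _ = _ := by simp only [p2]; ring

theorem pieceF_le {C : Cell} {Mu Ml : ℚ} {P : Piece} (h : pieceF C Mu Ml P = true) :
    pieceTest C Mu Ml P = true := by
  simp only [pieceF, strictZ_eq, Bool.and_eq_true] at h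
  obtain ⟨h', hr⟩ := h
  have hU : 0 < C.K.U := by
    have := h'.1.1.1.1.1.1.1.1.1.1.1.1.1.1.2
    rwa [zlt_eq, decide_eq_true_eq] at this
  have hr' := reachF_le hU hr
  simp only [zle_eq, zlt_eq, zeq_eq, zmul_eq, zadd_eq, zsub_eq, powF_eq,
    Int.ofNat_eq_natCast, Nat.add_eq, Nat.cast_add, Nat.cast_ofNat, Nat.beq_eq,
    ← ite_eq_cond', decide_eq_true_eq, Bool.and_eq_true, Bool.or_eq_true, Bool.not_eq_true'] at h' hr'
  simp only [pieceTest, Bool.and_eq_true, Bool.or_eq_true, Bool.not_eq_true', decide_eq_true_eq]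
  obtain ⟨⟨⟨⟨⟨⟨⟨⟨⟨⟨⟨⟨⟨⟨⟨⟨⟨g1, g2⟩, g3⟩, _⟩, g4⟩, g5⟩, g6⟩, g7⟩, g8⟩, g9⟩, gb⟩, g10⟩, g11⟩, g12⟩, g13⟩, g14⟩, g15⟩, g16⟩ := h'
  refine ⟨⟨⟨⟨⟨⟨⟨⟨⟨⟨⟨⟨⟨⟨⟨⟨⟨⟨g1, g2⟩, g3⟩, g4⟩, g5⟩, g6⟩, g7⟩, g8⟩, g9⟩,
    gb.imp id fun g => ⟨g.1, g.2.imp (fun e => e.imp id (backF_le C P)) id⟩⟩, g10⟩, g11⟩, ?_⟩, g13⟩,
    g14⟩, g15⟩, g16⟩, hr'.1⟩, hr'.2⟩
  revert g12
  cases P.ovf with
  | true =>
    simp only [if_true]
    split <;> [exact id; exact mixF_le]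
  | false =>
    simp only [Bool.false_eq_true, if_false, Bool.and_eq_true, decide_eq_true_eq]
    rintro ⟨⟨f, hb⟩, e0, e1⟩
    obtain ⟨b1, b2, b3⟩ := bandF_le hb
    exact ⟨⟨⟨⟨⟨f, b1⟩, b2⟩, b3⟩, e0⟩, e1⟩

end Vale.Agent.P237.All.Finite
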