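import Vale.Agent.P237.All.Finite.Fast.Tree
import Vale.Agent.P237.All.Finite.Fast.Piece

/-!
P237, finitely many dimensions: the test of a piece as the kernel runs it; it implies the test of
`Checker`.
-/

noncomputable section

namespace Vale.Agent.P237.All.Finite

/-- The test of one piece, fast. -/
def pieceFullF (C : Cell) (m : Msk) (P : Piece) : Bool :=
  pieceF C (Transport.Finite.massQ (31416 / 10000) C.K.p)
      (Transport.Finite.massQ (31415 / 10000) (C.K.p + 1)) P &&
    (ctx C m P).strict fun c => treeF C.K C.e0 C.e1 P c (rootBox C.K.U P) P.tree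

theorem pieceFullF_le {C : Cell} {m : Msk} {P : Piece} (h : pieceFullF C m P = true) :
    pieceFullTest C m P = true := by
  simp only [pieceFullF, Bool.and_eq_true, Ctx.strict_eq, treeF_eq] at h
  simp only [pieceFullTest, Bool.and_eq_true, Ctx.strict_eq]
  exact ⟨pieceF_le h.1, h.2⟩

end Vale.Agent.P237.All.Finite
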