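import Vale.Agent.P237.All.Finite.Checker
import Vale.Agent.P237.All.Finite.Fast.Int

/-!
P237, finitely many dimensions: the tests of a leaf on integers written for the kernel
(`Fast/Int`), and that they give the tests of `Checker`.
-/

noncomputable section

namespace Vale.Agent.P237.All.Finite

/-- One chord condition of the line: `v² (D - Z) ≤ U² (U² D - Z w²)`, with `v2 = v²`, `w2 = w²`. -/
def chordF (U2 D v2 w2 Z : ℤ) : Bool :=
  zle (zmul v2 (zsub D Z)) (zmul U2 (zsub (zmul U2 D) (zmul Z w2)))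

/-- The test of the line. -/
def lineF (U : ℤ) (c : Ctx) (L : Leaf) : Bool :=
  strictZ (zadd (zmul L.c0 U) (zmul L.sl L.ca)) fun a =>
  strictZ (zadd (zmul L.c0 U) (zmul L.sl L.lend)) fun e =>
  zle 0 a && zle 0 e && (zle L.cb L.lend || (zeq e 0 && zle L.sl 0)) && zle L.ca L.lend &&
  strictZ (zmul U U) fun U2 =>
  strictZ (zmul (zadd U L.ca) (zadd U L.ca)) fun wa => strictZ (zmul a a) fun a2 =>
  strictZ (zmul (zadd U L.lend) (zadd U L.lend)) fun we => strictZ (zmul e e) fun e2 =>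
    chordF U2 c.D a2 wa c.Z0 && chordF U2 c.D a2 wa c.Z1 &&
    chordF U2 c.D e2 we c.Z0 && chordF U2 c.D e2 we c.Z1

/-- The Hermite test. -/
def hermiteF (p : ℕ) (U l : ℤ) (P : Piece) (L : Leaf) : Bool :=
  strictZ (Int.ofNat (Nat.add p 1)) fun p1 =>
  strictZ (Int.ofNat p) fun pz =>
  strictZ (zadd U l) fun a =>
  strictZ (zadd U L.u) fun b =>
  strictZ (zadd U L.v) fun c =>
  strictZ (zsub L.u l) fun d =>
  strictZ (zpow a p) fun ap =>
  strictZ (zpow b p) fun bp =>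
  strictZ (zpow c p) fun cp =>
  strictZ (zpow U p) fun Up =>
  strictZ (zpow U (Nat.sub p 2)) fun Up2 =>
  strictZ (zadd (zsub (zmul ap a) (zmul bp b)) (zmul (zmul p1 bp) d)) fun N1 =>
  strictZ (zmul bp b) fun b1 =>
  strictZ (zmul cp c) fun c1 =>
  strictZ (zmul Up U) fun U1 =>
  strictZ (zmul Up (zsub (zsub b1 (zmul ap b)) (zmul (zmul pz d) ap))) fun N2 =>
  zle 0 a && zlt 0 d && zlt 0 c &&
    zle (zmul L.q0 Up) (zsub (zsub (zmul ap a) U1) (zmul (zmul p1 l) Up)) &&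
    zle (zmul (zmul (zmul L.q2 d) d) Up2) N1 &&
    zle (zmul (zmul L.q1 d) (zmul Up2 U)) (zsub (zmul (zmul p1 (zsub bp Up)) d) (zmul 2 N1)) &&
    zle (zmul L.v1 (zmul Up2 U)) (zmul p1 (zsub cp Up)) &&
    zle (zmul L.v0 Up)
      (zadd (zsub (zsub c1 U1) (zmul (zmul p1 L.v) Up)) (zmul (zmul p1 (zsub cp Up)) (zsub l L.v))) &&
    zle (zmul L.w1 c1) (zmul (zmul pz U) (zsub c1 U1)) &&
    zle (zmul L.w0 c1) (zadd (zadd (zsub (zmul U1 c) (zmul U c1)) (zmul (zmul pz L.v) c1))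
      (zmul (zmul pz (zsub c1 U1)) (zsub l L.v))) &&
    cond L.crude
      (zle (zadd (zneg U) (zmul pz l)) L.u0 && zle (zmul pz U) L.u1 && zle 0 L.u2 && zle 0 P.Kx)
      (zlt 0 a && zle U1 (zmul (zsub (zadd L.u0 U) (zmul pz l)) ap) &&
        zle (zmul (zmul (zmul U U) U) N2) (zmul (zmul (zmul (zmul L.u2 d) d) ap) b1) &&
        zle (zsub (zmul (zmul (zmul (zmul pz (zsub b1 U1)) d) U) ap) (zmul (zmul (zmul 2 U) U) N2))
          (zmul (zmul (zmul L.u1 d) ap) b1))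

/-- The conditions of the multipliers. -/
def musF (P : Piece) (b : Box) (lineOk : Bool) (l : List (MI × ℤ × ℤ)) : Bool :=
  List.rec true (fun x _ ih =>
    zle 0 x.2.1 && zle 0 x.2.2 && (!x.1.quad || zeq x.2.2 0) && (!x.1.needsH || b.h.isSome) &&
      (!x.1.needsBack || P.back) && (!x.1.needsLine || lineOk) && ih) l

/-- The bounds on the lower end in `τ`. -/
def lowEndF (K : KC) (P : Piece) (c : Ctx) (b : Box) (L : Leaf) : Bool :=
  cond b.aBand
    (P.back && zle 0 P.al0 && zle 0 P.al1 && zle (zmul L.ca c.D) (zmul (zneg P.al0) (zsub c.D c.Z0)) &&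
      zle (zmul L.ca c.D) (zmul (zneg P.al1) (zsub c.D c.Z0)) &&
      zle (zmul (zmul K.ccb c.Z1) P.al0) (zmul (zmul K.cc K.U) c.D) &&
      zle (zmul (zmul K.ccb c.Z1) P.al1) (zmul (zmul K.cc K.U) c.D))
    (zle L.ca b.ta && zle 0 (zadd (zmul (zmul K.cc (zsub c.D c.Z0)) K.U) (zmul (zmul K.ccb c.Z0) b.ta)) &&
      zle 0 (zadd (zmul (zmul K.cc (zsub c.D c.Z1)) K.U) (zmul (zmul K.ccb c.Z1) b.ta)))

/-- The bound on the coefficient of `δ τ²`. -/
def ztF (K : KC) (e0 e1 : End) (L : Leaf) : Bool :=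
  strictZ (Int.ofNat (Nat.add K.p 4)) fun p4 =>
  strictZ (zmul K.k3 K.U) fun k3U =>
  strictZ (zmul K.cce L.v1) fun cv =>
    zle (zsub (zadd (zmul (zmul p4 e0.g) K.U) k3U) cv) (zmul L.ztu0 K.U) &&
    zle (zsub (zadd (zmul (zmul p4 e1.g) K.U) k3U) cv) (zmul L.ztu1 K.U) &&
    ((zle L.ztu0 0 && zle L.ztu1 0 && zle (zadd (zmul L.xA L.xA) (zmul (zmul 4 L.xB) K.U)) 0) ||
      (zle 0 L.ztu0 && zle 0 L.ztu1 && zeq L.xA (zadd L.ca L.cb) &&
        zle (zneg (zmul L.ca L.cb)) (zmul L.xB K.U)))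

/-- `bb` is below `cb`, or `cb` is beyond the sphere on the piece. -/
def capF (U : ℤ) (c : Ctx) (bb cb : ℤ) : Bool :=
  zle bb cb || (zle 0 (zadd U cb) &&
    zle (zmul (zmul U U) c.D) (zmul (zmul c.Z0 (zadd U cb)) (zadd U cb)))

theorem ite_eq_cond {α : Type} (c : Bool) (x y : α) : (if c then x else y) = cond c x y := by
  cases c <;> rfl

theorem lineF_eq (U : ℤ) (c : Ctx) (b : Box) (L : Leaf) : lineF U c L = lineTest U c b L := by
  simp only [lineF, lineTest, chordF, strictZ_eq, zle_eq, zeq_eq, zadd_eq, zsub_eq, zmul_eq,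
    Bool.and_assoc, ← mul_assoc]

theorem hermiteF_eq (p : ℕ) (U l : ℤ) (P : Piece) (L : Leaf) :
    hermiteF p U l P L = hermiteTest p U l P L := by
  simp only [hermiteF, hermiteTest, strictZ_eq, zle_eq, zlt_eq, zadd_eq, zsub_eq, zmul_eq, zneg_eq,
    zpow_eq, ite_eq_cond, Nat.add_eq, Nat.sub_eq, Int.ofNat_eq_natCast, Nat.cast_add, Nat.cast_one]

theorem musF_eq (P : Piece) (b : Box) (ok : Bool) :
    ∀ l : List (MI × ℤ × ℤ), musF P b ok l = musTest P b ok l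
  | [] => rfl
  | (i, m0, m1) :: l => by
    show (zle 0 m0 && zle 0 m1 && (!i.quad || zeq m1 0) && (!i.needsH || b.h.isSome) &&
      (!i.needsBack || P.back) && (!i.needsLine || ok) && musF P b ok l) = _
    simp only [musTest, musF_eq P b ok l, zle_eq, zeq_eq]

theorem lowEndF_eq (K : KC) (P : Piece) (c : Ctx) (b : Box) (L : Leaf) :
    lowEndF K P c b L = lowEndTest K P c b L := by
  simp only [lowEndF, lowEndTest, zle_eq, zadd_eq, zsub_eq, zmul_eq, zneg_eq, ite_eq_cond]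

theorem ztF_eq (K : KC) (e0 e1 : End) (L : Leaf) : ztF K e0 e1 L = ztTest K e0 e1 L := by
  simp only [ztF, ztTest, strictZ_eq, zle_eq, zeq_eq, zadd_eq, zsub_eq, zmul_eq, zneg_eq, Nat.add_eq,
    Int.ofNat_eq_natCast, Nat.cast_add, Nat.cast_ofNat]

theorem capF_eq (U : ℤ) (c : Ctx) (bb cb : ℤ) : capF U c bb cb = capTest U c bb cb := by
  simp only [capF, capTest, zle_eq, zadd_eq, zmul_eq]

end Vale.Agent.P237.All.Finite
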