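import Vale.Agent.P237.All.Finite.Fast.Leaf

/-!
P237, finitely many dimensions: the test of a subdivision on the fast leaf tests.
-/

noncomputable section

namespace Vale.Agent.P237.All.Finite

/-- The bound on the upper end in `τ`. -/
def upF (U : ℤ) (P : Piece) (c : Ctx) (b : Box) (cb : ℤ) : Bool :=
  cond b.bBand (zle P.bb0 cb && capF U c P.bb1 cb) (zle b.tb cb)

/-- The products with their multipliers, evaluated by the reader only. -/
def accF (B : ℕ) (C : GC) (l : List (MI × ℤ × ℤ)) : Six :=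
  List.rec ⟨PK.const 0, PK.const 0, PK.const 0, PK.const 0, PK.const 0, PK.const 0⟩
    (fun x _ E => (cond x.1.quad (PK.const x.2.1) (PK.linW B x.2.1 x.2.2)).strict fun mu => x.1.acc C mu E) l

/-- The six coefficients with the multipliers. -/
def sixF (K : KC) (c : Ctx) (b : Box) (P : Piece) (L : Leaf) : Six :=
  (iscal b P L).strict fun S =>
  (major K c.G (leafPar c L) S c.b).strict fun M =>
  List.rec M
    (fun _ _ _ => (accF c.m.B (gcOf K.U K c b L S) L.mus).strict fun E =>
      ⟨M.e00.add (c.G.DN.mul E.e00), M.e01.add (c.G.DN.mul E.e01), M.e02.add (c.G.DN.mul E.e02),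
        M.e11.add (c.G.DN.mul E.e11), M.e12.add (c.G.DN.mul E.e12), M.e22.add (c.G.DN.mul E.e22)⟩) L.mus

theorem accF_eq (B : ℕ) (C : GC) : ∀ l : List (MI × ℤ × ℤ), accF B C l = accMus B C l
  | [] => rfl
  | (i, m0, m1) :: l => by
    show (cond i.quad (PK.const m0) (PK.linW B m0 m1)).strict (fun mu => i.acc C mu (accF B C l)) = _
    simp only [accMus, Six.strict_eq, accF_eq B C l, ite_eq_cond]

theorem sixF_eq (K : KC) (c : Ctx) (b : Box) (P : Piece) (L : Leaf) : sixF K c b P L = six K c b P L := by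
  simp only [sixF, six, accF_eq, IScal.strict_eq, Six.strict_eq]
  cases L.mus <;> rfl

/-- The test of a leaf. -/
def leafF (K : KC) (e0 e1 : End) (P : Piece) (c : Ctx) (b : Box) (L : Leaf) : Bool :=
  Nat.ble L.pick 3 && zle (zneg K.U) b.l && lowEndF K P c b L && upF K.U P c b L.cb &&
    musF P b (lineF K.U c L) L.mus && hermiteF K.p K.U b.l P L && ztF K e0 e1 L &&
    pickTest K c b P L && (sixF K c b P L).strict fun E => pdTest c.m c.G.S c.w E

/-- One condition of a split by the speed. -/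
def lowSF (U U3D r2 L2 D Z u2 : ℤ) : Bool :=
  zle (zmul (zmul r2 L2) (zsub D Z)) (zmul U (zsub U3D (zmul Z u2)))

/-- The test of a subdivision. -/
def treeF (K : KC) (e0 e1 : End) (P : Piece) (c : Ctx) : Box → Tree → Bool
  | b, .leaf L => leafF K e0 e1 P c b L
  | b, .splitX m lo hi => zle b.l m && treeF K e0 e1 P c { b with h := some m } lo &&
      treeF K e0 e1 P c { b with l := m } hi
  | b, .splitT m lo hi => treeF K e0 e1 P c { b with bBand := false, tb := m } lo &&
      treeF K e0 e1 P c { b with aBand := false, ta := m } hi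
  | b, .lowS l hb t =>
      (strictZ (zadd K.U l) fun r => strictZ (zmul r r) fun r2 => strictZ (zadd K.U hb) fun u =>
        strictZ (zmul u u) fun u2 => strictZ (zmul (zmul K.U K.U) c.D) fun U2D =>
        zle 0 r && upF K.U P c b hb &&
          lowSF K.U U2D r2 e0.L2 c.D c.Z0 u2 && lowSF K.U U2D r2 e1.L2 c.D c.Z0 u2 &&
          lowSF K.U U2D r2 e0.L2 c.D c.Z1 u2 && lowSF K.U U2D r2 e1.L2 c.D c.Z1 u2) &&
        treeF K e0 e1 P c { b with l := l } t
  | b, .lowR l t => zlt 0 P.rho && zle (zadd K.U l) P.rho && treeF K e0 e1 P c { b with l := l } t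

theorem leafF_eq (K : KC) (e0 e1 : End) (P : Piece) (c : Ctx) (b : Box) (L : Leaf) :
    leafF K e0 e1 P c b L = leafTest K e0 e1 P c b L := by
  simp only [leafF, leafTest, sixF_eq, upF, lowEndF_eq, capF_eq, musF_eq, hermiteF_eq, ztF_eq,
    lineF_eq K.U c b L, zle_eq, zneg_eq, ite_eq_cond]
  congr 9
  rw [Bool.eq_iff_iff, Nat.ble_eq, decide_eq_true_eq]

theorem treeF_eq (K : KC) (e0 e1 : End) (P : Piece) (c : Ctx) :
    ∀ (b : Box) (t : Tree), treeF K e0 e1 P c b t = treeTest K e0 e1 P c b t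
  | b, .leaf L => leafF_eq K e0 e1 P c b L
  | b, .splitX m lo hi => by
    simp only [treeF, treeTest, zle_eq, treeF_eq K e0 e1 P c _ lo, treeF_eq K e0 e1 P c _ hi]
  | b, .splitT m lo hi => by
    simp only [treeF, treeTest, treeF_eq K e0 e1 P c _ lo, treeF_eq K e0 e1 P c _ hi]
  | b, .lowS l hb t => by
    simp only [treeF, treeTest, treeF_eq K e0 e1 P c _ t, lowSF, upF, capF_eq, strictZ_eq, zle_eq,
      zadd_eq, zsub_eq, zmul_eq, ite_eq_cond, Bool.and_assoc, ← mul_assoc]
  | b, .lowR l t => by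
    simp only [treeF, treeTest, treeF_eq K e0 e1 P c _ t, zle_eq, zlt_eq, zadd_eq]

end Vale.Agent.P237.All.Finite
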